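import Mathlib
import Vale.Agent.P345.PellChain

/-!
Every Diophantine representation can be replaced by one whose witnesses in a box of size `T`
number at most `(log₂ T + 2) / N`, for any prescribed `N`.
-/

namespace Vale.Agent.Results.P345.SparseWitnesses

open MvPolynomial Vale.Agent.P345

private lemma mem_progression {L u k : ℕ} (hk : k % (u + 1) = u) (hL : k ≤ L) :
    k / (u + 1) < (L + 1) / (u + 1) ∧ k = k / (u + 1) * (u + 1) + u := by
  have h := Nat.div_add_mod k (u + 1)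
  rw [hk, mul_comm] at h
  refine ⟨?_, h.symm⟩
  rw [Nat.lt_iff_add_one_le, Nat.le_div_iff_mul_le (Nat.succ_pos u), add_mul, one_mul]
  simp only [Nat.succ_eq_add_one]
  omega

theorem result : ∀ (n m : ℕ) (P : MvPolynomial (Fin n ⊕ Fin m) ℤ) (N : ℕ),
    ∃ (m' : ℕ) (Q : MvPolynomial (Fin n ⊕ Fin m') ℤ), ∀ a : Fin n → ℕ,
      ((∃ w : Fin m → ℕ,
          MvPolynomial.eval (Sum.elim (fun i => (a i : ℤ)) (fun j => (w j : ℤ))) P = 0) ↔
        ∃ w : Fin m' → ℕ,
          MvPolynomial.eval (Sum.elim (fun i => (a i : ℤ)) (fun j => (w j : ℤ))) Q = 0) ∧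
      ∀ T : ℕ,
        {w : Fin m' → ℕ | (∀ i, w i ≤ T) ∧
          MvPolynomial.eval (Sum.elim (fun i => (a i : ℤ)) (fun j => (w j : ℤ))) Q = 0}.Finite ∧
        N * {w : Fin m' → ℕ | (∀ i, w i ≤ T) ∧
          MvPolynomial.eval (Sum.elim (fun i => (a i : ℤ)) (fun j => (w j : ℤ))) Q = 0}.ncard
          ≤ Nat.log 2 T + 2 := by
  intro n m P N
  obtain ⟨K, hK1, hK⟩ := exists_threshold m N
  let e : Fin 6 → MvPolynomial (Fin n ⊕ Fin (m + 6)) ℤ := fun i => X (Sum.inr (Fin.natAdd m i))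
  let sp : MvPolynomial (Fin n ⊕ Fin (m + 6)) ℤ :=
    ∑ j : Fin m, X (Sum.inr (Fin.castAdd 6 j)) + C (K : ℤ)
  let Q : MvPolynomial (Fin n ⊕ Fin (m + 6)) ℤ :=
    rename (Sum.map id (Fin.castAdd 6)) P ^ 2
      + (e 0 * e 0 - ((sp + 2) * (sp + 2) - 1) * e 1 * e 1 - 1) ^ 2
      + (e 1 - sp - (sp + 1) * e 2) ^ 2
      + (e 3 * e 3 - ((e 1 + 2) * (e 1 + 2) - 1) * e 4 * e 4 - 1) ^ 2
      + (e 4 - e 1 - (e 1 + 1) * e 5) ^ 2
  refine ⟨m + 6, Q, fun a => ?_⟩
  have hQ : ∀ z : Fin (m + 6) → ℕ,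
      MvPolynomial.eval (Sum.elim (fun i => (a i : ℤ)) (fun j => (z j : ℤ))) Q = 0 ↔
      (MvPolynomial.eval (Sum.elim (fun i => (a i : ℤ))
          (fun j => (z (Fin.castAdd 6 j) : ℤ))) P = 0 ∧
        let s := (∑ j : Fin m, z (Fin.castAdd 6 j)) + K
        let v := fun i : Fin 6 => z (Fin.natAdd m i)
        ((v 0 : ℤ) * v 0 - (((s : ℤ) + 2) * (s + 2) - 1) * v 1 * v 1 = 1 ∧
          v 1 = s + (s + 1) * v 2) ∧
        ((v 3 : ℤ) * v 3 - (((v 1 : ℤ) + 2) * (v 1 + 2) - 1) * v 4 * v 4 = 1 ∧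
          v 4 = v 1 + (v 1 + 1) * v 5)) := by
    intro z
    have hcomp : (Sum.elim (fun i => (a i : ℤ)) (fun j => (z j : ℤ))) ∘
          (Sum.map id (Fin.castAdd 6)) =
        Sum.elim (fun i => (a i : ℤ)) (fun j => (z (Fin.castAdd 6 j) : ℤ)) := by
      funext x; rcases x with x | x <;> rfl
    simp only [Q, e, sp, map_add, map_sub, map_mul, map_pow, map_one, map_sum, eval_rename, hcomp,
      eval_X, eval_C, Sum.elim_inr, map_ofNat]
    rw [add_eq_zero_iff_of_nonneg (by positivity) (by positivity),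
      add_eq_zero_iff_of_nonneg (by positivity) (by positivity),
      add_eq_zero_iff_of_nonneg (by positivity) (by positivity),
      add_eq_zero_iff_of_nonneg (by positivity) (by positivity)]
    simp only [sq_eq_zero_iff, sub_eq_zero, and_assoc]
    zify
    constructor <;> rintro ⟨h0, h1, h2, h3, h4⟩ <;>
      exact ⟨h0, by linarith, by linarith, by linarith, by linarith⟩
  refine ⟨⟨?_, ?_⟩, fun T => ?_⟩
  · rintro ⟨w, hw⟩
    obtain ⟨x1, u1, q1, hx1, hu1⟩ := exists_solution ((∑ j, w j) + K)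
    obtain ⟨x2, u2, q2, hx2, hu2⟩ := exists_solution u1
    refine ⟨Fin.append w ![x1, u1, q1, x2, u2, q2], (hQ _).2 ?_⟩
    simp only [Fin.append_left, Fin.append_right]
    exact ⟨hw, ⟨hx1, hu1⟩, hx2, hu2⟩
  · rintro ⟨z, hz⟩
    exact ⟨_, ((hQ z).1 hz).1⟩
  · have hfin : {w : Fin (m + 6) → ℕ | (∀ i, w i ≤ T) ∧
          MvPolynomial.eval (Sum.elim (fun i => (a i : ℤ)) (fun j => (w j : ℤ))) Q = 0}.Finite :=
      (Fintype.piFinset fun _ : Fin (m + 6) => Finset.range (T + 1)).finite_toSet.subset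
        fun w hw => by
          simp only [Finset.mem_coe, Fintype.mem_piFinset, Finset.mem_range]
          exact fun i => Nat.lt_succ_of_le (hw.1 i)
    refine ⟨hfin, ?_⟩
    classical
    set L := Nat.log 2 T + 1 with hL
    -- the first Pell number attached to the original witness `w` and the index `k`
    let U : (Fin m → ℕ) → ℕ → ℕ := fun w k =>
      Pell.yn (a := (∑ j, w j) + K + 2) (by omega) k
    let f : ℕ → Finset (Fin m → ℕ) := fun k => Fintype.piFinset fun _ => Finset.range (k + 1)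
    let D : Finset ((_ : ℕ) × (_ : Fin m → ℕ) × ℕ) := (Finset.Ico K (K + L)).sigma fun k =>
      (f k).sigma fun w => Finset.range ((L + 1) / (U w k + 1))
    let g : ((_ : ℕ) × (_ : Fin m → ℕ) × ℕ) → (Fin (m + 6) → ℕ) := fun t =>
      let w := t.2.1
      let s := (∑ j, w j) + K
      let u1 := U w t.1
      let k2 := t.2.2 * (u1 + 1) + u1
      let u2 := Pell.yn (a := u1 + 2) (by omega) k2
      Fin.append w ![Pell.xn (a := s + 2) (by omega) t.1, u1, (u1 - s) / (s + 1),
        Pell.xn (a := u1 + 2) (by omega) k2, u2, (u2 - u1) / (u1 + 1)]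
    have hsub : {w : Fin (m + 6) → ℕ | (∀ i, w i ≤ T) ∧
          MvPolynomial.eval (Sum.elim (fun i => (a i : ℤ)) (fun j => (w j : ℤ))) Q = 0} ⊆
        ↑(D.image g) := by
      rintro z ⟨hT, hz⟩
      obtain ⟨-, ⟨hp1, hl1⟩, hp2, hl2⟩ := (hQ z).1 hz
      dsimp only at hp1 hl1 hp2 hl2
      obtain ⟨k1, hx1, hy1⟩ := solution_index hp1
      obtain ⟨k2, hx2, hy2⟩ := solution_index hp2
      set s := (∑ j : Fin m, z (Fin.castAdd 6 j)) + K with hs
      have hm1 : k1 % (s + 1) = s := index_residue (hy1.symm.trans hl1)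
      have hm2 := index_residue (hy2.symm.trans hl2)
      have hsk : s ≤ k1 := hm1 ▸ Nat.mod_le _ _
      have hk1 : k1 ≤ L := index_le_log _ (hy1.symm.le.trans (hT _))
      have hk2 : k2 ≤ L := index_le_log _ (hy2.symm.le.trans (hT _))
      obtain ⟨hj, hkj⟩ := mem_progression hm2 hk2
      have hU : U (fun j => z (Fin.castAdd 6 j)) k1 = z (Fin.natAdd m 1) := hy1.symm
      rw [Finset.mem_coe, Finset.mem_image]
      refine ⟨⟨k1, fun j => z (Fin.castAdd 6 j), k2 / (z (Fin.natAdd m 1) + 1)⟩, ?_, ?_⟩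
      · simp only [D, f, Finset.mem_sigma, Finset.mem_Ico, Fintype.mem_piFinset,
          Finset.mem_range, hU]
        refine ⟨⟨by omega, by omega⟩, fun j => ?_, hj⟩
        have := Finset.single_le_sum (f := fun j => z (Fin.castAdd 6 j))
          (fun _ _ => Nat.zero_le _) (Finset.mem_univ j)
        omega
      · simp only [g, hU, ← hkj, ← hs, ← hx1, ← hx2, ← hy2]
        have hq1 : (z (Fin.natAdd m 1) - s) / (s + 1) = z (Fin.natAdd m 2) := by
          rw [hl1, Nat.add_sub_cancel_left, Nat.mul_div_cancel_left _ s.succ_pos]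
        have hq2 : (z (Fin.natAdd m 4) - z (Fin.natAdd m 1)) / (z (Fin.natAdd m 1) + 1)
            = z (Fin.natAdd m 5) := by
          rw [hl2, Nat.add_sub_cancel_left, Nat.mul_div_cancel_left _ (Nat.succ_pos _)]
        funext i
        refine Fin.addCases (fun j => ?_) (fun j => ?_) i
        · rw [Fin.append_left]
        · rw [Fin.append_right, hq1, hq2]
          fin_cases j <;> rfl
    calc N * _ ≤ N * (D.image g).card := by
          refine Nat.mul_le_mul_left _ ?_
          rw [← Set.ncard_coe_finset]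
          exact Set.ncard_le_ncard hsub (Finset.finite_toSet _)
      _ ≤ N * D.card := Nat.mul_le_mul_left _ Finset.card_image_le
      _ = N * ∑ k ∈ Finset.Ico K (K + L), ∑ w ∈ f k, (L + 1) / (U w k + 1) := by
          simp only [D, Finset.card_sigma, Finset.card_range]
      _ ≤ L + 1 := by
          refine chain_count hK1 hK L f U (fun k => ?_) (fun k w _ => ?_)
          · simp [f]
          · have := two_pow_le_yn (a := (∑ j, w j) + K + 2) (by omega) k
            simp only [U]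
            omega

end Vale.Agent.Results.P345.SparseWitnesses
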